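import Vale.Agent.P057PO.Dl

/-!
Popular points: the part of the argument on the labels of the vertices.
-/

set_option linter.all false

open Matrix Finset Real
open Vale.Agent.P267.H775 Vale.Agent.P057G Vale.Agent.P057MA Vale.Agent.P057PC
open Vale.Agent.P057TP hiding ind
open Vale.Agent.P057GH Vale.Agent.P057DP
open Vale.Agent.P057T1 (ind ind_pos ind_neg ind_nonneg ind_le abs_ind ind_mono)
open Vale.Agent.P057EN (Cq cq_iff)

namespace Vale.Agent.P057PO

noncomputable section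

variable {C W E K S κ : Type} {T : Tow} {cl : W → C} {m s : ℕ} {N : ℝ} [Fintype E] [DecidableEq E]
  [Fintype K] [DecidableEq K] [Fintype S] [Fintype W] [DecidableEq W] [Fintype κ] [DecidableEq κ]
  {Z : Sys T W Unit} {πE : E → W}

theorem emp {α : Type} : (Empty.elim : Empty → α).Injective := fun u => u.elim

/-- the labels of the vertices -/
abbrev L0 (T : Tow) (cl : W → C) (m : ℕ) : Type := LK T cl m (Ov.one W) Empty Empty

/-- the expectation over the labels of the vertices -/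
def E0 (Z : Sys T W Unit) (cl : W → C) (m : ℕ) (f : (L0 T cl m → ℤ) → ℝ) : ℝ :=
  Er ((Ov.one W).ms cl m Z Empty Empty (fun _ _ => 1) 0)
    (b0 T cl m (Ov.one W) Empty Empty fun _ => True) f

theorem kp_bz (l : L0 T cl m) : Kp (bz (Ov.one W) K S l).fc (bz (Ov.one W) K S l).bs :=
  kp_lf.2 ⟨by
    cases e : l.bs with
    | none => rfl
    | some u => exact u.elim, fun e => e.elim⟩

theorem bz_range {l : LK T cl m (Ov.one W) K S} (h : Kp l.fc l.bs) : ∃ l₀, bz _ K S l₀ = l :=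
  lf_range (O₁ := Ov.one W) (O₂ := Ov.one W) (g := id) (fun _ => rfl) Function.injective_id emp
    (fun v _ => ⟨v, rfl⟩) (fun v b => (h.2 v b).elim) fun u b => by rw [h.1] at b; cases b

theorem bz_inj : (bz (Ov.one W) K S : L0 T cl m → _).Injective :=
  lf_inj Function.injective_id emp emp

theorem er_bz {a : Finset (W ⊕ K) → Option S → ℝ} {c : LK T cl m (Ov.one W) K S → ℝ}
    (ha : ∀ A o, Kp A o → a A o = 1) (hc : ∀ l, Kp l.fc l.bs → c l = 0)
    (f : (L0 T cl m → ℤ) → ℝ) : Er ((Ov.one W).ms cl m Z K S a c)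
      (b0 T cl m (Ov.one W) K S fun _ => True) (fun z => f (z ∘ bz _ K S)) = E0 Z cl m f := by
  rw [← b0_image (O₁ := Ov.one W) (g := id) (h := fun _ => rfl) (k := (Empty.elim : Empty → K))
    (t := (Empty.elim : Empty → S)) (P₁ := fun _ => True) Function.injective_id emp
    fun x => by simp]
  exact (emb_lf Function.injective_id emp emp (fun _ => rfl)
    (fun l _ => ha (bz _ K S l).fc (bz _ K S l).bs (kp_bz l)) fun l _ => hc _ (kp_bz l)).er f

/-- the labels of the vertices among the labels with extra vertices -/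
def e3 (πE : E → W) (l : L0 T cl m) : LT T cl m (px πE) := ri πE (bz _ Unit Empty l)

theorem e3_eq : (e3 πE : L0 T cl m → _) =
    lf (O₁ := Ov.one W) (O₂ := px πE) (g := Sum.inr) (fun _ => rfl) Empty.elim Empty.elim :=
  funext fun l => (lf_lf (O₃ := px πE) (g₂ := Sum.inr) (fun _ => rfl) _ _).trans
    (lf_congr (fun _ _ => rfl) (fun e => e.elim) fun e => e.elim)

theorem e3_inj : (e3 πE : L0 T cl m → _).Injective :=
  e3_eq (πE := πE) ▸ lf_inj Sum.inr_injective emp emp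

theorem b0_e3 : (b0 T cl m (Ov.one W) Empty Empty fun _ => True).image (e3 πE) =
    b0 T cl m (px πE) Unit Empty fun x => ¬ x.isLeft := by
  rw [e3_eq]
  exact b0_image Sum.inr_injective emp fun x => by cases x <;> simp

theorem e3_mem (l : L0 T cl m) : e3 πE l ∈ b0 T cl m (px πE) Unit Empty fun x => ¬ x.isLeft :=
  b0_e3 (πE := πE) ▸ mem_image_of_mem _ (mem_b0.2 ⟨⟨by
    cases e : l.bs with
    | none => rfl
    | some u => exact u.elim, fun e => e.elim⟩, fun _ _ => trivial⟩)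

theorem er_e3 (σE : E → ℝ) (f : (L0 T cl m → ℤ) → ℝ) :
    Er (tst cl m Z (px πE) (Sum.elim σE fun _ => 1) 1)
      (b0 T cl m (px πE) Unit Empty fun x => ¬ x.isLeft) (fun z => f (z ∘ e3 πE)) =
      E0 Z cl m f := by
  rw [← b0_e3, e3_eq]
  refine (emb_lf Sum.inr_injective emp emp (fun _ => rfl)
    (fun l hl => ?_) fun _ _ => rfl).er f
  beta_reduce
  rw [sc_image (σ₁ := fun _ => 1) Sum.inr_injective emp fun _ _ => rfl,
    show sc (fun _ => 1) l.fc = 1 from prod_eq_one fun v _ => by cases v <;> rfl, ite_self]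

variable {n : ℕ} {L η : ℝ}

/-- points with many refinements -/
theorem core1 (hT : T.Ok s N) (hZ : Z.Ok) (hA : Al cl m Z n L η) (hη : η ≤ 1)
    (hn : 2 * (Fintype.card (E ⊕ W) + 1) ≤ n) {σE : E → ℝ} (hσ : ∀ e, 0 < σE e) (h1 : 1 ≤ L)
    (hL : ∀ l : LT T cl m (px πE), sc (Sum.elim σE fun _ => 1) l.fc ≤ L)
    {V : (LT T cl m (px πE) → ℤ) → Prop} (hV : Dp (b0 T cl m (px πE) Unit Empty fun _ => True) V)
    {δ : ℝ} (hδ : 0 < δ) : ∃ G : (L0 T cl m → ℤ) → Prop, (∀ u, G u → ∃ z, V z ∧ z ∘ e3 πE = u) ∧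
      dn cl m Z (px πE) (Sum.elim σE fun _ => 1) (fun _ => True) V ≤
        E0 Z cl m (fun u => ind (G u)) + 3 * √η + 2 * δ ∧
      ∀ H : (L0 T cl m → ℤ) → Prop, δ * E0 Z cl m (fun u => ind (G u ∧ H u)) ≤
        dn cl m Z (px πE) (Sum.elim σE fun _ => 1) (fun _ => True)
          fun z => V z ∧ H (z ∘ e3 πE) := by
  have p0 : ∀ x, 0 < Sum.elim σE (fun _ : W => (1 : ℝ)) x := fun x => by
    cases x; exacts [hσ _, one_pos]
  have lo := lo_tst (cl := cl) (m := m) (O := px πE) hT hZ p0 one_pos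
  have pa : ∀ (A : Finset ((E ⊕ W) ⊕ Unit)) (_ : Option Empty),
      0 < if Sum.inr () ∈ A then 1 else sc (Sum.elim σE fun _ => 1) A := fun A _ => by
    split_ifs; exacts [one_pos, sc_pos p0 A]
  have pL : ∀ l : LT T cl m (px πE),
      (if Sum.inr () ∈ l.fc then 1 else sc (Sum.elim σE fun _ => 1) l.fc) ≤ L := fun l => by
    split_ifs; exacts [h1, hL l]
  set S₁ := tst cl m Z (px πE) (Sum.elim σE fun _ => 1) 1 with hS
  set q := b0 T cl m (px πE) Unit Empty fun _ => True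
  set q₀ := b0 T cl m (px πE) Unit Empty fun x => ¬ x.isLeft
  have hs : q₀ ∪ q \ q₀ = q := union_sdiff_of_subset (b0_mono fun _ _ => trivial)
  have d0 : Dc S₁ q₀ := dc_ms (cq_b0 _)
  have c1 : Cl S₁ (q₀ ∪ q \ q₀) := hs.symm ▸ (dc_ms (cq_b0 _) : Dc S₁ q).cl lo
  have sat := sat_of_union lo.pd.1 (d0.cl lo).sat c1.sat disjoint_sdiff
  have l1 : Er S₁ q₀ (fun y => |fm S₁ (q \ q₀) y - 1|) ≤ 3 * √η :=
    dl1 hT hZ hA hη (by simpa using hn) pa pL (fun x => x.isLeft) (fun _ => False) (fun _ => False)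
      (cq_b0 _) fun l => by simp [q₀, q, mem_b0]
  have dφ : Dp q₀ (Fr S₁ (q \ q₀) fun z => ind (V z)) := dp_Fr c1 (hs.symm ▸ hV.map ind)
  have eφ : ∀ y, Fr S₁ (q \ q₀) (fun z => ind (V z)) (Function.extend (e3 πE) (y ∘ e3 πE) 0) =
      Fr S₁ (q \ q₀) (fun z => ind (V z)) y := fun y => dφ _ _ fun l hl => by
    obtain ⟨l₀, -, rfl⟩ := mem_image.1 (b0_e3.ge hl)
    exact e3_inj.extend_apply _ _ _
  have bφ := lo.bd_Fr (q \ q₀) (bd_ind V)
  have sp : ∀ E', dn cl m Z (px πE) (Sum.elim σE fun _ => 1) (fun _ => True) E' =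
      Er S₁ q₀ (Fr S₁ (q \ q₀) fun z => ind (E' z)) := fun E' =>
    (congrArg (Er S₁ · _) hs.symm).trans (lo.Er_split (d0.cl lo) sat disjoint_sdiff (bd_ind E'))
  refine ⟨fun u => δ ≤ Fr S₁ (q \ q₀) (fun z => ind (V z)) (Function.extend (e3 πE) u 0),
    fun u hu => ?_, ?_, fun H => ?_⟩
  · by_contra k
    refine absurd hu (not_le.2 (lt_of_eq_of_lt ?_ hδ))
    refine (tsum_congr fun x => ?_).trans tsum_zero
    beta_reduce
    rw [ind_neg fun a => k ⟨_, a, funext fun l => ?_⟩, mul_zero]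
    exact (put_neg _ _ fun b => (mem_sdiff.1 b).2 (e3_mem l)).trans (e3_inj.extend_apply _ _ _)
  · rw [← er_e3 (πE := πE) σE, sp]
    exact er_cut lo.toTr bφ hδ.le (lo.Fr_ind V) (fun y k => k.trans_eq (eφ y).symm) l1
      ((hA _ _ _ _ _ _ (by simp at hn ⊢; omega) pa pL).le hη d0)
  · rw [← er_e3 (πE := πE) σE, sp, ← Er_mul]
    refine lo.Er_le ((bd_const δ).mul (bd_ind _)) (lo.bd_Fr _ (bd_ind _)) fun y _ => ?_
    simp only [ind_and, mul_comm (ind (V _))]
    rw [Fr_mul disjoint_sdiff _ (g := fun z => ind (H (z ∘ e3 πE))) fun z z' k =>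
      congrArg (fun u => ind (H u)) (funext fun l => k _ (e3_mem l)), eφ, ← mul_assoc, mul_comm]
    refine mul_le_mul_of_nonneg_left ?_ (ind_nonneg _)
    by_cases a : δ ≤ Fr S₁ (q \ q₀) (fun z => ind (V z)) y
    · rwa [ind_pos a, mul_one]
    · rw [ind_neg a, mul_zero]; exact Fr_nonneg (fun _ => ind_nonneg _) y

/-- popular points carry the correlation -/
theorem core2 (hT : T.Ok s N) (hZ : Z.Ok) (hA : Al cl m Z n L η) (hη : η ≤ 1)
    (hn : 2 * (Fintype.card W + Fintype.card (κ × Bool) + 1) ≤ n) {x : Sx T cl m κ} (hx : x.Ok L)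
    (G : (L0 T cl m → ℤ) → Prop) {δ : ℝ} (hδ : 0 < δ) :
    ‖Ev ((Ov.one W).ms cl m Z (κ × Bool) Unit x.a x.c) univ fun z =>
      (ind (G (z ∘ bz _ _ _)) : ℝ) * Fs x.Ce x.g x.θ (ι := id) (fun _ => rfl) id () z‖ ≤
      E0 Z cl m (fun u => ind (G u ∧ x.Pop Z δ (Function.extend (bz _ Unit Empty) u 0))) +
        3 * √η + 2 * δ := by
  have pa := fun A o => (hx.bd A o).1
  have lo := lo_ms (O := Ov.one W) (cl := cl) (m := m) hT hZ pa x.c
  set S₁ := (Ov.one W).ms cl m Z (κ × Bool) Unit x.a x.c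
  set q₀ := b0 T cl m (Ov.one W) (κ × Bool) Unit fun _ => True
  set F := Fs x.Ce x.g x.θ (ι := id) (O := Ov.one W) (fun _ => rfl) id ()
  have d0 : Dc S₁ q₀ := dc_ms (cq_b0 _)
  have c1 : Cl S₁ (q₀ ∪ q₀ᶜ) := (union_compl q₀).symm ▸ dc_univ.cl lo
  have sat := sat_of_union lo.pd.1 (d0.cl lo).sat c1.sat disjoint_compl_right
  have l1 : Er S₁ q₀ (fun y => |fm S₁ q₀ᶜ y - 1|) ≤ 3 * √η :=
    dl1 hT hZ hA hη (by simpa using hn) pa (fun l => (hx.bd _ _).2) (fun _ => False)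
      (fun _ => True) (fun _ => True) (q := univ) (fun _ _ _ _ _ => mem_univ _) fun l => by
        simp only [q₀, mem_b0, Kp, mem_univ, not_false_eq_true, implies_true, not_true_eq_false,
          true_and, and_true, imp_false, Option.eq_none_iff_forall_ne_some, ne_eq, and_comm]
  have nF : ∀ z, ‖F z‖ ≤ 1 := fun z => by
    simp only [F, Fs]
    rw [norm_mul, norm_ee, mul_one, norm_prod]
    refine prod_le_one (fun _ _ => norm_nonneg _) fun j _ => ?_
    rw [norm_prod]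
    exact prod_le_one (fun _ _ => norm_nonneg _) fun c _ => by
      rw [Complex.norm_real]; exact hx.g1 _ _ _
  have mb : ∀ l, bz (Ov.one W) (κ × Bool) Unit l ∈ q₀ := fun l =>
    mem_b0.2 ⟨kp_bz l, fun _ _ => trivial⟩
  have dF : Dp q₀ (Fb S₁ q₀ᶜ F) := dp_Fb c1 fun z z' k =>
    congrArg F (funext fun l => k l (by rw [union_compl]; exact mem_univ _))
  obtain ⟨B, hB⟩ := lo.Fb_bdd q₀ᶜ nF
  have bf := (bd_ind fun y => G (y ∘ bz (Ov.one W) (κ × Bool) Unit)).mul (bd_norm hB)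
  rw [← union_compl q₀, Ev_split lo.toTr (d0.cl lo) sat disjoint_compl_right (C := 1) fun z => by
      rw [norm_mul, Complex.norm_real]
      exact mul_le_one₀ (abs_ind _) (norm_nonneg _) (nF z),
    funext (Fb_mul disjoint_compl_right F (g := fun z => (ind (G (z ∘ bz _ _ _)) : ℝ))
      fun z z' k => congrArg (fun u => ((ind (G u) : ℝ) : ℂ)) (funext fun l => k _ (mb l))),
    ← er_bz hx.kp hx.c0]
  refine (lo.norm_Ev_le bf fun y _ => ?_).trans (er_cut lo.toTr bf hδ.le (fun y => ?_)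
    (fun y k => ?_) l1 ((hA _ _ _ _ _ _ (by simp at hn ⊢; omega) pa
      fun l => (hx.bd _ _).2).le hη d0))
  · rw [norm_mul, Complex.norm_real, Real.norm_of_nonneg (ind_nonneg _)]
  · exact (mul_le_of_le_one_left (norm_nonneg _) (ind_le _)).trans
      ((lo.norm_Fb _ nF y).trans_eq (one_mul _))
  · by_cases a : G (y ∘ bz (Ov.one W) (κ × Bool) Unit)
    · rw [ind_pos a, one_mul] at k
      refine ⟨a, fun z e => k.trans_eq (congrArg norm (dF _ _ fun l hl => ?_))⟩
      rw [Function.extend_comp bz_inj] at e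
      obtain ⟨l₀, rfl⟩ := bz_range (mem_b0.1 hl).1
      exact (congrFun e l₀).symm
    · rw [ind_neg a, zero_mul] at k
      exact absurd k (not_le.2 hδ)

end

end Vale.Agent.P057PO
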