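import Vale.Agent.P057DP.Pl2
import Vale.Agent.P057AL.Al

/-!
The masses of the fibres over the labels that avoid a set of vertices.
-/

set_option linter.all false

open Matrix Finset Real
open Vale.Agent.P267.H775 Vale.Agent.P057G Vale.Agent.P057MA Vale.Agent.P057PC
open Vale.Agent.P057TP hiding ind
open Vale.Agent.P057GH Vale.Agent.P057DP
open Vale.Agent.P057T1 (ind ind_pos ind_neg ind_nonneg ind_le abs_ind ind_mono)
open Vale.Agent.P057EN (Cq cq_iff)

namespace Vale.Agent.P057PO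

noncomputable section

section gen

variable {α : Type} {D : α → Prop}

open Classical in
/-- the exchange of the two copies -/
def fl (D : α → Prop) (x : α × Bool) : α × Bool := (x.1, if D x.1 then !x.2 else x.2)

theorem fl_inj : (fl D).Injective := Function.Involutive.injective fun x => by
  unfold fl
  split_ifs <;> simp

theorem cp_inj (i : Bool) : (cp D i).Injective := fun _ _ e => congrArg Prod.fst e

theorem fl_cp (x : α) : fl D (cp D false x) = cp D true x := by
  unfold fl P057DP.cp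
  split_ifs <;> simp

theorem cp_off {x : α} (h : ¬ D x) : cp D false x = cp D true x := by simp [P057DP.cp, h]

theorem cp_ne {x y : α} (h : D y) : cp D false x ≠ cp D true y := fun e => by
  have := congrArg Prod.snd e
  simp [P057DP.cp, h] at this

variable {V ι : Type} [Fintype ι] [DecidableEq ι] {S : MS V ι} {q r : Finset ι}

/-- a function below the fibre mass is small outside the set where it is large -/
theorem er_cut (h : Tr S) {f : (ι → ℤ) → ℝ} {G : (ι → ℤ) → Prop} {δ ε : ℝ} (hf : Bd f)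
    (hδ : 0 ≤ δ) (k1 : ∀ y, f y ≤ fm S r y) (k2 : ∀ y, δ ≤ f y → G y)
    (k : Er S q (fun y => |fm S r y - 1|) ≤ ε) (hm : S.mass q ≤ 2) :
    Er S q f ≤ Er S q (fun y => ind (G y)) + ε + 2 * δ := by
  have b := ((h.bd_fm r).sub (bd_const 1)).abs
  have := h.Er_le (q := q) hf (((bd_ind G).add b).add (bd_const δ)) fun y _ => by
    have := abs_nonneg (fm S r y - 1)
    by_cases a : δ ≤ f y
    · rw [ind_pos (k2 y a)]; linarith [k1 y, le_abs_self (fm S r y - 1)]
    · linarith [ind_nonneg (G y), not_le.1 a]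
  rw [h.Er_add ((bd_ind G).add b) (bd_const δ), h.Er_add (bd_ind G) b, Er_const] at this
  nlinarith

end gen

variable {C W X K S : Type} {T : Tow} {cl : W → C} {m s : ℕ} {N : ℝ}
  [Fintype X] [DecidableEq X] [Fintype K] [DecidableEq K] [Fintype S] [Fintype W] [DecidableEq W]
  {O : Ov W X} {Z : Sys T W Unit}

/-- the masses of the fibres are close to one in the mean -/
theorem dl1 (hT : T.Ok s N) (hZ : Z.Ok) {n : ℕ} {L η : ℝ} (hA : Al cl m Z n L η) (hη : η ≤ 1)
    (hn : 2 * (Fintype.card X + Fintype.card K + Fintype.card S) ≤ n)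
    {a : Finset (X ⊕ K) → Option S → ℝ} {c : LK T cl m O K S → ℝ} (ha : ∀ A o, 0 < a A o)
    (hL : ∀ l : LK T cl m O K S, a l.fc l.bs ≤ L) (D : X → Prop) (DK : K → Prop) (DS : S → Prop)
    {q q₀ : Finset (LK T cl m O K S)} (hq : Cq q)
    (h0 : ∀ l, l ∈ q₀ ↔ l ∈ q ∧ (∀ x, Sum.inl x ∈ l.fc → ¬ D x) ∧ (∀ e, Sum.inr e ∈ l.fc → ¬ DK e) ∧
      ∀ u, l.bs = some u → ¬ DS u) :
    Er (O.ms cl m Z K S a c) q₀ (fun y => |fm (O.ms cl m Z K S a c) (q \ q₀) y - 1|) ≤ 3 * √η := by
  classical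
  let pj : LK T cl m O.dbl (K × Bool) (S × Bool) → LK T cl m O K S :=
    lf (O₁ := O.dbl) (O₂ := O) (g := Prod.fst) (fun _ => rfl) Prod.fst Prod.fst
  let a' : Finset (X × Bool ⊕ K × Bool) → Option (S × Bool) → ℝ :=
    fun A o => a (A.image (Sum.map Prod.fst Prod.fst)) (o.map Prod.fst)
  let i : Bool → LK T cl m O K S → LK T cl m O.dbl (K × Bool) (S × Bool) := fun b =>
    lf (O₁ := O) (O₂ := O.dbl) (g := cp D b) (fun _ => rfl) (cp DK b) (cp DS b)
  let τ : LK T cl m O.dbl (K × Bool) (S × Bool) → LK T cl m O.dbl (K × Bool) (S × Bool) :=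
    lf (O₁ := O.dbl) (O₂ := O.dbl) (g := fl D) (fun _ => rfl) (fl DK) (fl DS)
  have pi : ∀ b l, pj (i b l) = l := fun b l =>
    (lf_lf _ _ _).trans (lf_self (fun _ _ => rfl) (fun _ _ => rfl) fun _ _ => rfl)
  have pτ : ∀ l, pj (τ l) = pj l := fun l =>
    (lf_lf _ _ _).trans (lf_congr (fun _ _ => rfl) (fun _ _ => rfl) fun _ _ => rfl)
  have ti : ∀ l, τ (i false l) = i true l := fun l =>
    (lf_lf _ _ _).trans (lf_congr (fun x _ => fl_cp x) (fun x _ => fl_cp x) fun x _ => fl_cp x)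
  have i0 : ∀ l ∈ q₀, i false l = i true l := fun l hl =>
    lf_congr (fun x k => cp_off (((h0 l).1 hl).2.1 x k)) (fun x k => cp_off (((h0 l).1 hl).2.2.1 x k))
      fun x k => cp_off (((h0 l).1 hl).2.2.2 x k)
  have ha' : ∀ A o, 0 < a' A o := fun _ _ => ha _ _
  have lo := lo_ms (O := O.dbl) (cl := cl) (m := m) hT hZ ha' (c ∘ pj)
  have e0 : Emb (O.ms cl m Z K S a c) (O.dbl.ms cl m Z (K × Bool) (S × Bool) a' (c ∘ pj)) (i false)
      univ := emb_lf (cp_inj _) (cp_inj _) (cp_inj _) (fun _ => rfl)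
    (fun l _ => congrArg (fun l => a (Lb.fc l) (Lb.bs l)) (pi false l))
    fun l _ => congrArg c (pi false l)
  have et : Emb (O.dbl.ms cl m Z (K × Bool) (S × Bool) a' (c ∘ pj))
      (O.dbl.ms cl m Z (K × Bool) (S × Bool) a' (c ∘ pj)) τ univ :=
    emb_lf fl_inj fl_inj fl_inj (fun _ => rfl)
      (fun l _ => congrArg (fun l => a (Lb.fc l) (Lb.bs l)) (pτ l)) fun l _ => congrArg c (pτ l)
  have hs : q₀ ⊆ q := fun l hl => ((h0 l).1 hl).1
  have hq0 : Cq q₀ := fun l hl l' k1 k2 => by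
    obtain ⟨b0, b1, b2, b3⟩ := (h0 l).1 hl
    refine (h0 l').2 ⟨hq l b0 l' k1 k2, fun x k => b1 x (k1 k), fun x k => b2 x (k1 k),
      fun u k => ?_⟩
    rcases k2 with k2 | k2
    · rw [k2] at k; cases k
    · exact b3 u (k2 ▸ k)
  have cq : ∀ b {p}, Cq p → Dc (O.dbl.ms cl m Z (K × Bool) (S × Bool) a' (c ∘ pj))
      (p.image (i b)) := fun b p hp => dc_ms (cq_image (cp_inj _) (cp_inj _) (cp_inj _) hp)
  have u1 : q₀.image (i false) ∪ (q \ q₀).image (i false) = q.image (i false) := by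
    rw [← image_union, union_sdiff_of_subset hs]
  have u2 : q₀.image (i false) ∪ (q \ q₀).image (i true) = q.image (i true) := by
    rw [image_congr (g := i true) i0, ← image_union, union_sdiff_of_subset hs]
  have u3 : q.image (i false) ∪ (q \ q₀).image (i true) = q.image (i false) ∪ q.image (i true) := by
    rw [← u2, ← union_assoc, union_eq_left.2 (image_subset_image hs)]
  have cp : Cp (O.dbl.ms cl m Z (K × Bool) (S × Bool) a' (c ∘ pj)) (q₀.image (i false))
      ((q \ q₀).image (i false)) ((q \ q₀).image (i true)) τ := by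
    refine ⟨(cq _ hq0).cl lo, u1 ▸ (cq _ hq).cl lo, u2 ▸ (cq _ hq).cl lo,
      (disjoint_image e0.inj).2 disjoint_sdiff, ?_, et.inj, fun l hl => ?_, ?_,
      fun l _ l' _ => et.gr l (mem_univ _) l' (mem_univ _), fun z l _ => et.ce z l (mem_univ _)⟩
    · rw [u1, disjoint_left]
      intro l h1 h2
      obtain ⟨l1, -, rfl⟩ := mem_image.1 h1
      obtain ⟨l2, b, e⟩ := mem_image.1 h2
      refine (mem_sdiff.1 b).2 ((h0 l2).2 ⟨(mem_sdiff.1 b).1, fun x k d => ?_, fun x k d => ?_,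
        fun x k d => ?_⟩)
      · have k1 : Sum.inl (P057DP.cp D true x) ∈ (i true l2).fc := inl_lf.2 ⟨x, k, rfl⟩
        obtain ⟨y, -, k2⟩ := inl_lf.1 (e ▸ k1)
        exact cp_ne d k2
      · have k1 : Sum.inr (P057DP.cp DK true x) ∈ (i true l2).fc := inr_lf.2 ⟨x, k, rfl⟩
        obtain ⟨y, -, k2⟩ := inr_lf.1 (e ▸ k1)
        exact cp_ne d k2
      · have k1 : l2.bs.map _ = l1.bs.map _ := congrArg Lb.bs e
        rw [k] at k1
        obtain ⟨y, -, k2⟩ := Option.map_eq_some_iff.1 k1.symm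
        exact cp_ne d k2
    · obtain ⟨l1, b, rfl⟩ := mem_image.1 hl
      rw [ti, i0 l1 b]
    · rw [image_image]
      exact image_congr fun l _ => ti l
  have lf' := hA (X × Bool) (K × Bool) (S × Bool) O.dbl a' (c ∘ pj)
    (by simp only [Fintype.card_prod, Fintype.card_bool]; omega) ha' fun l => hL (pj l)
  have := cp.l1 lo.toTr hη (lf' _ (cq _ hq0)) (u1 ▸ lf' _ (cq _ hq))
    (by rw [u1, u3]; exact lf' _ ((cq _ hq).union (cq _ hq)))
  rw [← (e0.mono (subset_univ q₀)).er]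
  simpa only [Er, (e0.mono (subset_univ (q \ q₀))).fm] using this

end

end Vale.Agent.P057PO
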