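import Vale.Agent.P057PO.Cr
import Vale.Agent.P057SB.Nrs
import Vale.Agent.P057LU.CvA

/-!
The shear that replaces the frozen vertices by the vertices; labels of the vertices.
-/

set_option linter.all false

open Matrix Finset Real
open Vale.Agent.P267.H775 Vale.Agent.P057G Vale.Agent.P057MA Vale.Agent.P057PC
open Vale.Agent.P057TP hiding ind
open Vale.Agent.P057GH Vale.Agent.P057DP
open Vale.Agent.P057SG (PW rp)

namespace Vale.Agent.P057PO

noncomputable section

variable {C W E K : Type} {T : Tow} {cl : W → C} {m : ℕ} {πE : E → W} {t t' : ℤ}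

open Classical in
/-- the vertex plus `t` times its live part -/
def Mt (πE : E → W) (t : ℤ) (x v : E ⊕ W) : ℤ :=
  (if x = v then 1 else 0) + if x.isLeft ∧ v = Sum.inr ((px πE).π x) then t else 0

theorem M0_eq : M0 πE = Mt πE (-1) := by
  funext x v
  unfold M0 Mt
  split_ifs <;> rfl

theorem Mt_ne {x v : E ⊕ W} (h : Mt πE t x v ≠ 0) :
    x = v ∨ ∃ e, x = Sum.inl e ∧ v = Sum.inr (πE e) := by
  by_contra k
  rw [not_or] at k
  refine h ?_
  rw [Mt, if_neg k.1, if_neg fun a => k.2 ?_, add_zero]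
  obtain ⟨e, rfl⟩ := Sum.isLeft_iff.1 a.1
  exact ⟨e, rfl, a.2⟩

variable [Fintype E] [DecidableEq E] [Fintype W] [DecidableEq W]

theorem sum_Mt (x : E ⊕ W) (f : E ⊕ W → ℤ) : ∑ y, Mt πE t x y * f y =
    f x + if x.isLeft then t * f (Sum.inr ((px πE).π x)) else 0 := by
  simp only [Mt, add_mul, sum_add_distrib, ite_mul, one_mul, zero_mul, ite_and]
  congr 1
  · simp
  · split_ifs <;> simp

theorem Mt_mul (h : t + t' = 0) (x v : E ⊕ W) :
    ∑ y, Mt πE t x y * Mt πE t' y v = if x = v then 1 else 0 := by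
  rw [sum_Mt]
  obtain rfl : t' = -t := by omega
  rcases x with x | x
  · by_cases a : v = Sum.inr (πE x)
    · subst a; simp [Mt, px]
    · simp [Mt, px, a, Ne.symm a]
  · simp [Mt]

theorem sm_Mt (h : |t| ≤ 1) : Sm cl (px πE) (px πE) (Mt πE t) (fun _ => True) fun _ => True := by
  refine ⟨fun x v a => ?_, fun x v => ?_, fun v _ w => ?_, fun _ _ _ _ => trivial⟩
  · rcases Mt_ne a with rfl | ⟨e, rfl, rfl⟩ <;> rfl
  · unfold Mt
    split_ifs with a b
    · subst a; cases x <;> simp at b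
    all_goals simp [h]
  · rcases v with v | v <;> simp [Fintype.sum_sum_type, px, Mt, @eq_comm _ w]

theorem sub_ri (z : LT T cl m (px πE) → ℤ) :
    (sub (ex (pm (fun _ => True) (px πE).π)) (sub (ex (M0 πE)) z : LT T cl m (px πE) → ℤ) :
      LT T cl m (Ov.one W) → ℤ) = z ∘ ri πE := by
  have c1 : Cm ((px πE).cl cl Unit) ((Ov.one W).cl cl Unit) (ex (pm (fun _ => True) (px πE).π)) := by
    rintro (x | x) (v | v)
    · refine ⟨fun a => ?_, ?_⟩
      · obtain rfl : (px πE).π x = v := by simpa [ex, pm] using a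
        rfl
      · simp only [ex, pm, Sum.elim_inl]
        split_ifs <;> simp
    all_goals simp [ex, Ov.cl]
  rw [(P057SB.subc T _ _ _ m _ _ ℤ).1 _ _ _ _ c1 (M0_eq (πE := πE) ▸ P057SB.sm_cm (sm_Mt (by simp)))]
  refine Eq.trans ?_ ((P057SB.subc T _ _ _ m _ _ ℤ).2 (Sum.map Sum.inr fun _ => ())
    (hc_map (O₁ := Ov.one W) (O₂ := px πE) (fun _ => rfl) _)
    (Sum.inr_injective.sumMap fun _ _ _ => rfl) z).symm
  congr 1
  funext y v
  rw [M0_eq, Fintype.sum_sum_type]
  rcases y with y | y <;> rcases v with v | v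
  · simp only [ex, Sum.elim_inl, Sum.elim_inr, zero_mul, sum_const_zero, add_zero, sum_Mt]
    rcases y with y | y
    · by_cases a : πE y = v <;> simp [pm, px, a]
    · simp [pm, px, @eq_comm _ v]
  all_goals simp [ex]

/-- labels of the vertices -/
def jj (l : PW T cl m) : L0 T cl m :=
  ⟨(l.1.cd, l.1.fc.image Sum.inl, none), l.1.2.1, by
    rintro _ a _ b e
    obtain ⟨u, hu, rfl⟩ := mem_image.1 a
    obtain ⟨v, hv, rfl⟩ := mem_image.1 b
    rw [l.1.2.2.1 hu hv (Option.some_injective _ e)], by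
    change (l.1.fc.image _).card = T.lv l.1.cd
    rw [card_image_of_injective _ Sum.inl_injective, l.1.card_eq l.2]⟩

theorem jj_surj : (jj : PW T cl m → _).Surjective := fun k => by
  have e : k.fc.toLeft.image Sum.inl = k.fc := by
    ext (v | v)
    · simp
    · exact v.elim
  have b : k.bs = none := P057SB.bs_none k
  refine ⟨⟨⟨(k.cd, k.fc.toLeft, none), k.2.1, fun u hu v hv a => Sum.inl_injective
    (k.2.2.1 (mem_toLeft.1 hu) (mem_toLeft.1 hv) (congrArg some a)), ?_⟩, rfl⟩, lb_ext rfl e b.symm⟩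
  change k.fc.toLeft.card = T.lv k.cd
  rw [← k.card_eq b, ← card_image_of_injective _ (Sum.inl_injective (β := Empty)), e]

theorem kw_jj [Fintype K] [DecidableEq K] (z : LK T cl m (Ov.one W) K Unit → ℤ) :
    kw z = (z ∘ bz _ K Unit) ∘ jj := funext fun l =>
  congrArg z (lb_ext rfl (by
    change l.1.fc.image _ = (l.1.fc.image Sum.inl).image _
    rw [image_image]
    rfl) (congrArg (Option.map id) l.2))

theorem rp_jj (y : LT T cl m (Ov.one W) → ℤ) : rp (dc (toR y)) = (y ∘ bz _ Unit Empty) ∘ jj := by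
  rw [P057LU.rp_dcz]
  funext l
  refine congrArg y (lb_ext rfl ?_ rfl)
  change (P057SY.fo l.1).image _ = (l.1.fc.image Sum.inl).image _
  rw [P057SY.fo, if_pos (show l.1.bs = none from l.2), image_image, image_image]
  rfl

end

end Vale.Agent.P057PO
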