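import Vale.Agent.P057PO.Mt
import Vale.Agent.P057EN.Sin
import Vale.Agent.P057SR.Shr
import Vale.Agent.P057RC.Root

/-!
A dense set of refined configurations contains a dense set of popular points.
-/

set_option linter.all false

open Matrix Finset Real
open Vale.Agent.P267.H775 Vale.Agent.P057G Vale.Agent.P057MA Vale.Agent.P057PC
open Vale.Agent.P057TP hiding ind
open Vale.Agent.P057GH Vale.Agent.P057DP Vale.Agent.P057SG
open Vale.Agent.P057T1 (ind ind_pos ind_neg ind_nonneg ind_le abs_ind ind_mono)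

namespace Vale.Agent.P057PO

noncomputable section

theorem pw_le {x y : ℝ} {i j : ℕ} (h1 : 1 ≤ x) (h : x ≤ y) (hij : i ≤ j) : x ^ i ≤ y ^ j :=
  (pow_le_pow_left₀ (by linarith) h i).trans (pow_le_pow_right₀ (h1.trans h) hij)

theorem pw_st {x : ℝ} (h : 20 ≤ x) (i : ℕ) : 20 * x ^ i ≤ x ^ (i + 1) := by
  rw [pow_succ']
  exact mul_le_mul_of_nonneg_right h (by positivity)

theorem ex_st {x : ℝ} (h : 20 ≤ x) (i : ℕ) (hi : 1 ≤ i) :
    11 * exp (-x ^ (i + 1)) ≤ exp (-x ^ i) := by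
  have h1 := pw_st h i
  have h2 : 1 ≤ x ^ i := one_le_pow₀ (by linarith)
  rw [show -x ^ i = (x ^ (i + 1) - x ^ i) + -x ^ (i + 1) by ring, exp_add]
  exact mul_le_mul_of_nonneg_right (by linarith [add_one_le_exp (x ^ (i + 1) - x ^ i)])
    (exp_pos _).le

theorem lam_le {A : ℝ} {s k : ℕ} (h : 20 ≤ A) (hs : (s : ℝ) ≤ A) (hk : ((k + 3 : ℕ) : ℝ) ≤ A) :
    exp (A ^ (k + 2)) * ((A ^ (k + 3) + 1) * (s + 1) ^ s) ≤ exp (A ^ (k + 3)) := by
  have h1 : A ^ (k + 3) + 1 ≤ exp (A * A) :=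
    calc A ^ (k + 3) + 1 ≤ (A + 1) ^ (k + 3) := by
          simpa using pow_add_pow_le (by linarith : 0 ≤ A) zero_le_one (by omega : k + 3 ≠ 0)
      _ ≤ exp A ^ (k + 3) := pow_le_pow_left₀ (by linarith) (add_one_le_exp A) _
      _ ≤ _ := by
          rw [← exp_nat_mul]
          exact exp_le_exp.2 (mul_le_mul_of_nonneg_right hk (by linarith))
  have h2 : ((s : ℝ) + 1) ^ s ≤ exp (A * A) :=
    (pow_le_pow_left₀ (by positivity) (add_one_le_exp (s : ℝ)) _).trans (by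
      rw [← exp_nat_mul]
      exact exp_le_exp.2 (mul_self_le_mul_self (Nat.cast_nonneg _) hs))
  refine (mul_le_mul_of_nonneg_left (mul_le_mul h1 h2 (by positivity) (exp_pos _).le)
    (exp_pos _).le).trans ?_
  rw [← exp_add, ← exp_add]
  have h3 := pw_st h (k + 2)
  have h4 : A ^ 2 ≤ A ^ (k + 2) := pw_le (by linarith) le_rfl (by omega)
  exact exp_le_exp.2 (by nlinarith)

theorem sc_le {T : Tow} {s : ℕ} {N : ℝ} {C W X : Type} {cl : W → C} {m : ℕ} {O : Ov W X}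
    (hT : T.Ok s N) {σ : X → ℝ} {b : ℝ} (h1 : 1 ≤ b) (h : ∀ x, 0 ≤ σ x ∧ σ x ≤ b)
    (l : LT T cl m O) : sc σ l.fc ≤ b ^ s :=
  ((prod_le_prod (g := fun _ => b) (fun v _ => by cases v; exacts [(h _).1, zero_le_one])
    fun v _ => by cases v; exacts [(h _).2, h1]).trans_eq (prod_const b)).trans
    (pow_le_pow_right₀ h1 (l.card_le.trans (hT.le _)))

theorem pop (s : ℕ) : POP s := by
  obtain ⟨k, k1, hS⟩ := P057EN.sin s
  refine ⟨2 * k + s + 20, by omega, ?_⟩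
  intro N P T n p R _ _ Z f θ A γ lam X Y κ _ _ ψ F Ω h hPX hXY hYA g1 g2 l1 l2 hκ hF hB hΩ y U
    hXy hyY hU hQ hd
  have hT := h.ok
  have hZ := h.zok
  have pc : ((2 * k + s + 20 : ℕ) : ℝ) ≤ P (n + 2) := h.lad.big _
  have s0 := Nat.cast_nonneg (α := ℝ) s
  have k0 := Nat.cast_nonneg (α := ℝ) k
  push_cast at pc
  have x20 : 20 ≤ X := by linarith
  have y20 : 20 ≤ y := by linarith
  have Y20 : 20 ≤ Y := by linarith
  have A20 : 20 ≤ A := by linarith
  have yA : y ≤ A := hyY.trans hYA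
  have a1 : (1 : ℝ) ≤ A := by linarith
  have y1 : (1 : ℝ) ≤ y := by linarith
  have lam1 : 1 ≤ lam := (one_le_exp (by positivity)).trans l1
  have cv := P057RC.card_vt h (by omega)
  rw [Fintype.card_option] at cv
  push_cast at cv
  have P3 : P (n + 2) ^ 3 ≤ Y ^ 3 := pw_le (by linarith) (hPX.trans hXY) le_rfl
  have hA : Al (cU : Uv n p R → _) (n + 2) Z
      (2 * (Fintype.card (Wv n p ⊕ Uv n p R) + Fintype.card (κ × Bool) + 1))
      (exp (A ^ (k + 1 + 2))) (exp (-A ^ (k + 1 + 3))) :=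
    P057AL.al_lfd hT hZ le_rfl (P057RG.lfd_mono hT h.lf le_rfl (pw_le a1 le_rfl (by omega))
      (pw_le a1 le_rfl (by omega))) (by
        have h1 := pw_st A20 3
        have h2 : A ^ (3 + 1) ≤ A ^ (k + 1 + 3) := pw_le a1 le_rfl (by omega)
        have h3 : Y ^ 3 ≤ A ^ 3 := pw_le (by linarith) hYA le_rfl
        have h4 : A ≤ A ^ 3 := le_self_pow₀ a1 three_ne_zero
        rw [Fintype.card_prod, Fintype.card_bool]
        push_cast
        linarith) (lam_le A20 (by linarith) (by push_cast; linarith))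
  have η1 : exp (-A ^ (k + 1 + 3)) ≤ 1 := exp_le_one_iff.2 (neg_nonpos.2 (by positivity))
  have e32 : exp (-y ^ (k + 3)) ≤ exp (-y ^ 2) :=
    exp_le_exp.2 (neg_le_neg (pw_le y1 le_rfl (by omega)))
  have yk : y ^ (k + 3) ≤ A ^ (k + 1 + 2) := pw_le y1 yA (by omega)
  have Ak := pw_st A20 (k + 1 + 2)
  have A0 : 0 ≤ A ^ (k + 1 + 2) := by positivity
  have η2 : √(exp (-A ^ (k + 1 + 3))) ≤ exp (-y ^ (k + 3)) := by
    rw [← exp_half]
    exact exp_le_exp.2 (by linarith)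
  have η3 : exp (-A ^ (k + 1 + 3)) ≤ exp (-y ^ (k + 3)) := exp_le_exp.2 (by linarith)
  have hσ : ∀ x : Wv n p ⊕ Uv n p R, 1 ≤ Sum.elim (fun _ => lam) (fun _ => (1 : ℝ)) x ∧
      Sum.elim (fun _ => lam) (fun _ => (1 : ℝ)) x ≤ lam := fun x => by
    cases x; exacts [⟨lam1, le_rfl⟩, ⟨le_rfl, lam1⟩]
  have hL : ∀ l : LT T cU (n + 2) (px (Sum.inl : Wv n p → Uv n p R)),
      4 * sc (Sum.elim (fun _ => lam) fun _ => 1) l.fc ≤ exp (A ^ (k + 1 + 2)) := fun l => by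
    have h1 := (sc_le hT lam1 (fun x => ⟨zero_le_one.trans (hσ x).1, (hσ x).2⟩) l).trans
      (pow_le_pow_left₀ (by linarith) l2 s)
    rw [← exp_nat_mul] at h1
    refine (mul_le_mul (by linarith [add_one_le_exp A] : 4 ≤ exp A) h1
      (sc_pos (fun x => one_pos.trans_le (hσ x).1) _).le (exp_pos _).le).trans ?_
    rw [← exp_add]
    have h2 := pw_st A20 2
    have h3 : A ^ (2 + 1) ≤ A ^ (k + 1 + 2) := pw_le a1 le_rfl (by omega)
    exact exp_le_exp.2 (by nlinarith)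
  have sm := M0_eq (πE := (Sum.inl : Wv n p → Uv n p R)) ▸
    sm_Mt (cl := cU) (πE := (Sum.inl : Wv n p → Uv n p R)) (t := -1) (by simp)
  have dV : Dp (b0 T cU (n + 2) (px Sum.inl) Unit Empty fun _ => True)
      fun z => ev U (sub (ex (M0 Sum.inl)) z) :=
    (P057SB.nrs T s N _ _ _ _ Z cU (n + 2) (px Sum.inl) (px Sum.inl) _ _ _ hT hZ sm).1 _ (ev U)
      (P057LU.conv6 (Z := Z) hU)
  have Y5 : 20 * Y ^ 4 ≤ Y ^ 5 := pw_st Y20 4
  have Y4 : 20 * Y ^ 3 ≤ Y ^ 4 := pw_st Y20 3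
  have Y0 : 0 ≤ Y ^ 3 := by positivity
  have t2 : (2 : ℝ) ^ Fintype.card (Wv n p ⊕ Uv n p R) ≤ exp (Y ^ 3) :=
    (pow_le_pow_left₀ zero_le_two (by linarith [add_one_le_exp (1 : ℝ)]) _ :
      _ ≤ exp 1 ^ _).trans (by rw [← exp_nat_mul, mul_one]; exact exp_le_exp.2 (by linarith))
  have h1 := P057SR.shr P057SB.subp P057SB.subc T s N _ _ _ Z cU (n + 2) (px Sum.inl)
    (M0 Sum.inl) (Mt Sum.inl 1) (fun _ => True) (Sum.elim (fun _ => lam) fun _ => 1) _ _ _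
    (exp (-Y ^ 5)) (ev U) hT hZ sm (sm_Mt (by simp)) (fun _ _ _ _ => trivial)
    (fun _ _ _ _ => trivial) (by rw [M0_eq]; exact Mt_mul rfl) (by rw [M0_eq]; exact Mt_mul rfl)
    (fun x => (hσ x).1) (exp_pos _).le
    ((mul_le_mul_of_nonneg_right t2 (exp_pos _).le).trans (by
      rw [← exp_add]; exact exp_le_one_iff.2 (by linarith)))
    (fun x v a => (Mt_ne (M0_eq (πE := (Sum.inl : Wv n p → Uv n p R)) ▸ a)).imp_right (by
      rintro ⟨e, rfl, rfl⟩
      refine le_trans ?_ (mul_le_mul_of_nonneg_left l1 (sq_nonneg _))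
      rw [← exp_nat_mul, ← exp_add]
      have b1 : 20 * Y ^ 5 ≤ Y ^ 6 := pw_st Y20 5
      have b2 : Y ^ 6 ≤ Y ^ (2 * k + s + 20) := pw_le (by linarith) le_rfl (by omega)
      exact one_le_exp (by push_cast; linarith))) hA η1 (by omega) hL
  have h2 : 3 * 2 ^ Fintype.card (Wv n p ⊕ Uv n p R) * exp (-Y ^ 5) *
      Fintype.card (LT T cU (n + 2) (px (Sum.inl : Wv n p → Uv n p R))) ≤ 3 * exp (-y ^ 2) := by
    have b1 : (Fintype.card (LT T cU (n + 2) (px (Sum.inl : Wv n p → Uv n p R))) : ℝ) ≤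
        exp (Y ^ 4) :=
      (Nat.cast_le.2 (Fintype.card_of_bijective P057LU.rl_bij).ge).trans
        ((P057RC.card_lr h (by omega)).trans
          (exp_le_exp.2 (pw_le (by linarith) (hPX.trans hXY) le_rfl)))
    have b2 : y ^ 2 ≤ Y ^ 3 := pw_le y1 hyY (by omega)
    rw [mul_assoc, mul_assoc]
    refine mul_le_mul_of_nonneg_left ((mul_le_mul t2 (mul_le_mul_of_nonneg_left b1 (exp_pos _).le)
      (by positivity) (exp_pos _).le).trans ?_) zero_le_three
    rw [← exp_add, ← exp_add]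
    exact exp_le_exp.2 (by linarith)
  have h3 := hd.trans_eq (P057LU.conv7 hT hZ (by linarith)
    (one_pos.trans_le ((one_le_exp (by positivity)).trans g1)))
  obtain ⟨G, G1, G2, G3⟩ := core1 hT hZ hA η1 (by omega) (σE := fun _ => lam)
    (fun _ => by linarith) (one_le_exp A0) (fun l => by
      linarith [hL l, sc_pos (fun x => one_pos.trans_le (hσ x).1) l.fc]) dV (exp_pos (-y ^ 2))
  have gj : ∀ u, (∃ u', u' ∘ jj = u ∘ jj ∧ G u') ↔ G u := fun u =>
    ⟨fun ⟨u', a, b⟩ => jj_surj.injective_comp_right a ▸ b, fun b => ⟨u, rfl, b⟩⟩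
  have h4 : exp (-y ^ 2) ≤ ∑' w, wP Z w * ind (∃ u, u ∘ jj = w ∧ G u) := by
    rw [← P057LU.conv1]
    simp only [rp_jj, gj]
    rw [tst, er_bz (c := 0) (fun A o a => ?_) (fun _ _ => rfl) fun u => ind (G u)]
    · have b1 : 11 * exp (-y ^ 2) ≤ exp (-y ^ 1) := ex_st y20 1 le_rfl
      have b2 := (h3.trans h1).trans (add_le_add G2 (add_le_add le_rfl h2))
      rw [pow_one] at b1
      linarith
    · rw [show sc (fun _ => 1) A = 1 from prod_eq_one fun v _ => by cases v <;> rfl, ite_self]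
  have q2 : ∀ x : ℝ, 1 ≤ x → x ≤ x ^ 2 := fun x a => le_self_pow₀ a two_ne_zero
  have q3 : ∀ x : ℝ, 1 ≤ x → (x ^ 2) ^ k ≤ x ^ (2 * k + s + 20) := fun x a => by
    rw [← pow_mul]; exact pw_le a le_rfl (by omega)
  obtain ⟨g, gb, hg⟩ := hS N P T n p R Z f θ (A ^ 2) γ X (Y ^ 2) κ ψ F Ω
    { h with
      lad := { h.lad with big := fun e => (Nat.cast_le.2 (by omega)).trans (h.lad.big e) }
      PA := h.PA.trans (q2 A a1)
      lf := P057RG.lfd_mono hT h.lf le_rfl (q3 A a1) (q3 A a1) } hPX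
    (hXY.trans (q2 Y (by linarith))) (pw_le (by linarith) hYA le_rfl)
    ((exp_le_exp.2 (q3 Y (by linarith))).trans g1) (g2.trans (exp_le_exp.2 (q2 A a1))) hκ hF hB hΩ
  obtain ⟨a, cc, b1, b2, b3, b4⟩ := hg (y ^ 2) (fun w => ind (∃ u, u ∘ jj = w ∧ G u))
    (hXy.trans (q2 y y1)) (pw_le y1 hyY le_rfl) (fun w => ⟨ind_nonneg _, ind_le _⟩)
    (fun w hw => by
      obtain ⟨u, rfl, b⟩ := by_contra fun b => hw (ind_neg b)
      obtain ⟨z, c, rfl⟩ := G1 u b
      have := hQ _ (fun l => (sub (ex (M0 Sum.inl)) z : LT T cU (n + 2) (O0 n p R) → ℤ) (rl l.1)) c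
      have e : rp (rm (toR (sub (ex (M0 Sum.inl)) z : LT T cU (n + 2) (O0 n p R) → ℤ))) =
          (z ∘ e3 Sum.inl) ∘ jj := by
        rw [rm, ← P057SB.toR_sub]
        exact (congrArg (fun v => rp (dc (toR v))) (sub_ri z)).trans (rp_jj _)
      rw [← e, ← P057LU.conv5]
      exact this) h4
  have g0 : 0 < γ := (exp_pos _).trans_le g1
  have ok : ∀ am, exp (X ^ k) * γ ≤ am → (⟨a, cc, (cells (Prod.fst : Wv n p → Fin n)).image
      (image Sum.inl), g, fun a u => P057SG.fm (ψ a) (dc u)⟩ : Sx T cU (n + 2) κ).Ok am :=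
    fun am e => ⟨b1, b2, fun A o => ⟨(b3 A o).1, (b3 A o).2.trans e⟩, fun c hc => by
      obtain ⟨c, hd, rfl⟩ := mem_image.1 hc
      rintro _ a _ b e
      obtain ⟨u, hu, rfl⟩ := mem_image.1 a
      obtain ⟨v, hv, rfl⟩ := mem_image.1 b
      rw [(mem_cells.1 hd).1 hu hv (Option.some_injective _ e)], gb, fun a => P057LU.conv2 _⟩
  have h5 := core2 hT hZ hA η1 (by rw [Fintype.card_sum (β := Uv n p R)]; omega)
    (ok _ ((mul_le_mul_of_nonneg_left g2 (exp_pos _).le).trans (by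
      rw [← exp_add]
      have c1 := pw_st A20 (k + 2)
      have c2 : X ^ k ≤ A ^ (k + 2) := pw_le (by linarith) (hXY.trans hYA) (by omega)
      have c3 : A ≤ A ^ (k + 2) := le_self_pow₀ a1 (by omega)
      exact exp_le_exp.2 (by linarith)))) G (exp_pos (-y ^ (2 * k + s + 20)))
  simp only [kw_jj, gj] at b4
  have h6 := G3 fun u => Sx.Pop ⟨a, cc, (cells (Prod.fst : Wv n p → Fin n)).image (image Sum.inl), g,
    fun a u => P057SG.fm (ψ a) (dc u)⟩ Z (exp (-y ^ (2 * k + s + 20)))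
      (Function.extend (bz _ Unit Empty) u 0)
  refine ⟨_, ok _ (mul_le_mul_of_nonneg_right (exp_le_exp.2 (pw_le (by linarith) hXy (by omega)))
    g0.le), rfl, dV.map₂ (g := fun z => Sx.Pop _ Z _ (z ∘ ri Sum.inl)) (fun z z' e => ?_) And, ?_⟩
  · have : z ∘ e3 Sum.inl = z' ∘ e3 Sum.inl :=
      funext fun l => e _ (b0_mono (fun _ _ => trivial) (e3_mem l))
    exact forall_congr fun u => congrArg (fun v => u ∘ _ = v → _) this
  · refine le_trans ?_ (h6.trans (dn_mono hT hZ (fun x => one_pos.trans_le (hσ x).1)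
      fun z e => ⟨e.1, fun u c => e.2 u (c.trans (Function.extend_comp bz_inj _ _).symm)⟩))
    have c1 := ex_st y20 (k + 2) (by omega)
    have c2 : exp (-y ^ (2 * k + s + 20)) ≤ exp (-y ^ (k + 3)) :=
      exp_le_exp.2 (neg_le_neg (pw_le y1 le_rfl (by omega)))
    have c3 : 20 * y ^ (k + 1) ≤ y ^ (k + 2) := pw_st y20 (k + 1)
    have c4 : y ^ 2 ≤ y ^ (k + 1) := pw_le y1 le_rfl (by omega)
    have c5 : X ^ k ≤ y ^ (k + 1) := pw_le (by linarith) hXy (by omega)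
    have c0 : 0 ≤ y ^ 2 := by positivity
    have c6 : exp (-y ^ (k + 2)) ≤ exp (-(y ^ 2 + X ^ k)) := exp_le_exp.2 (by linarith)
    have c7 := b4.trans h5
    have c11 : 11 * exp (-y ^ (k + 3)) ≤ exp (-y ^ (k + 2)) := c1
    refine le_trans ?_ (mul_le_mul_of_nonneg_left (show exp (-y ^ (k + 3)) ≤ _ by
      linarith [exp_pos (-y ^ (k + 3))]) (exp_pos _).le)
    rw [← exp_add]
    have c8 := pw_st y20 (k + 3)
    have c9 : y ^ (k + 3 + 1) ≤ y ^ (2 * k + s + 20) := pw_le y1 le_rfl (by omega)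
    have c10 : y ^ 2 ≤ y ^ (k + 3) := pw_le y1 le_rfl (by omega)
    exact exp_le_exp.2 (by linarith)

end

end Vale.Agent.P057PO
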